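import Vale.Agent.P141.H56.PnPart
import Vale.Agent.P141.H275.GrSum
import Vale.Agent.P141.H708.PNum3
import Vale.Agent.P141.H352.NFd
import Vale.Agent.P141.H352.KtKq

/-!
# P141, line (A): the near term of the flow part, layer 4 : `LeafN`

* `rootN`, `rootG` : the two numbers of the near term at one tile, bundle `FDs`;
* `line_kF` : the lines of the killed input in the direction of `x0`;
* `pnd` : the bundle of the flow part gives `PNd`;
* `leafN : LeafN`.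
-/

namespace Vale.Agent.P141.H56.Pn

open Finset Matrix
open Vale.Agent.P141.PL (Pt iv hs ix mem_iv ix_ix cb mem_cb cx)
open Vale.Agent.P141.PL.H315 (Tri)
open Vale.Agent.P141.H48 (US ES BSl sst)
open Vale.Agent.P141.H103 (un)
open Vale.Agent.P141.H205 (CapS)
open Vale.Agent.P141.H352 (gV KQ Ag Pm pk3 CapR kT_eq fd_capA fd_capb fd_pmA fd_pmb fd_pkA fd_pkb
  fd_KQA fd_KQb)
open Vale.Agent.P141.H275 (pn_GR CpS)
open Vale.Agent.P141.H470 (Cp PathQ AgrQ)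
open Vale.Agent.P141.H708 (nb_root)
open Vale.Agent.P141.H677
open Vale.Agent.P141.H677.Sk (FamA FamV PN fN FDs FD LeafN)
open Vale.Agent.P141.H652 (GR PlD)
open Vale.Agent.P141.H305 (ClsM kapM)
open Vale.Agent.P141.H401 (PartX PartF Bun qA qB)

noncomputable section

open scoped Classical

/-- the planes near the plane of the flow -/
theorem pl12 {o : ℤ} (ho : o = 1 ∨ o = -1) (x0 : ℤ) {d : ℤ} (h1 : -10 ≤ d) (h2 : d ≤ 10) :
    PlD 12 fun k => cP o x0 k + d :=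
  (H652.PlD_of_Pl (cP_pl ho x0)).add d (e := 10)
    (by rw [abs_le]; constructor <;> push_cast <;> omega)

/-- the cap in the letters of `H470` -/
theorem cp_of {κ : Type} [Fintype κ] {c : ℝ} {k : ℕ} {b : ℤ → ℤ → κ → ℝ} {n m : ℤ}
    (h : CapS c k k b n m) : Cp c k k b n m := by
  intro f
  refine (h f).trans (le_of_eq ?_)
  ring

variable {ι : Type} [Fintype ι] [DecidableEq ι] {q : H401.Num} {n : ℕ} {ez : ℝ}
  {F1 F2 F3 : ℕ → Pt → ℝ} {K : ℕ} {x : Pt} {s r : ℝ} {U : Tri} {g : ℤ → ℤ → ℝ}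
  {u v : ℤ → ℤ → ι → ℝ} {A : FamA} {b C : FamV ι} {Q1 Q2 Q3 : ℕ → Pt → Prop}
  {v' : ℤ → ℤ → ι → ℝ}

/-- the number of the masses -/
def mN (q : H401.Num) (K : ℕ) (s r : ℝ) : ℝ :=
  q.th s r ^ 2 * (q.CD * (q.Lm * s) * ((q.cP + 2) * 8 ^ K))

/-- **The window number of one tile.** -/
theorem rootN (h : FDs q n ez F1 F2 F3 K x s r U g u v A b C Q1 Q2 Q3 v') (hK : K ≤ n)
    (hm : 0 ≤ q.CD * (q.Lm * s)) {o : ℤ} (ho : o = 1 ∨ o = -1) (X : ℤ) {d : ℤ} (hd1 : -8 ≤ d)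
    (hd2 : d ≤ 9) :
    ∑ x0 ∈ iv K X, ∑ k ∈ Icc 1 K, WS K (cx K x).2.2 (cx K x).2.1 (cx K x).1 (A x0 k) (b x0 k) k
      (cP o x0 k + d) ≤ 1868 * (12736 * 12 + 16080) * 4 * mN q K s r := by
  have h1 := nb_root (N := K) (D := 12) (X := X) (R := (cx K x).2.2) (S := (cx K x).2.1)
    (T := (cx K x).1) (A := A) (b := b)
    (c := fun x0 k => cP o x0 k + d) (sq_nonneg (q.th s r)) (sq_nonneg (q.th s r)) hm hm
    (fun x0 _ => by funext z y; exact h.z0A x0 z y) (fun x0 _ => by funext z y; exact h.z0b x0 z y)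
    (fun x0 _ => pl12 ho x0 (by omega) (by omega)) (fun x0 _ => fd_capA h _ _ x0)
    (fun x0 _ => fd_capb h _ _ x0) (fd_pmA h X) (fd_pmb h X)
  refine le_trans (le_of_eq ?_) (h1.trans ?_)
  · rfl
  · have p1 := fd_pkA h hK X (cx K x).2.2 (cx K x).2.1
    have p2 := fd_pkb h hK X (cx K x).1 (cx K x).2.1
    have q1 := mul_le_mul_of_nonneg_left p1 hm
    have q2 := mul_le_mul_of_nonneg_left p2 hm
    have q3 := mul_le_mul_of_nonneg_left (add_le_add q1 q2)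
      (by positivity : (0 : ℝ) ≤ 1868 * (12736 * 12 + 16080) * (q.th s r ^ 2 + q.th s r ^ 2))
    push_cast
    refine q3.trans (le_of_eq ?_)
    unfold mN
    ring

/-- **The gap number of one tile.** -/
theorem rootG (h : FDs q n ez F1 F2 F3 K x s r U g u v A b C Q1 Q2 Q3 v') (hK : K ≤ n)
    (hm : 0 ≤ q.CD * (q.Lm * s)) {o : ℤ} (ho : o = 1 ∨ o = -1) (X : ℤ) {ρ : ℕ} (hr : ρ < K)
    {d : ℤ} (hd1 : -9 ≤ d) (hd2 : d ≤ 9) :
    ∑ x0 ∈ iv K X, ∑ k ∈ range (K - ρ), GR K (cx K x).2.2 (cx K x).2.1 (cx K x).1 (k + 1) ρ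
      (cP o x0 (k + ρ + 1) + d)
      (gV (A x0 (k + ρ + 1)) (b x0 (k + ρ + 1)) (k + ρ + 1) (k + 1)) ≤
      1085 * 4 * mN q K s r * 2 ^ ρ := by
  have one : ∀ x0 ∈ iv K X, ∑ k ∈ range (K - ρ), GR K (cx K x).2.2 (cx K x).2.1 (cx K x).1
      (k + 1) ρ (cP o x0 (k + ρ + 1) + d)
      (gV (A x0 (k + ρ + 1)) (b x0 (k + ρ + 1)) (k + ρ + 1) (k + 1)) ≤
      1085 * ((q.th s r ^ 2 + q.th s r ^ 2) *
        (KQ K (cx K x).2.2 (cx K x).2.1 (fun t i j => qA q U K Q1 t (ix t x0) i j)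
          (fun t => un (A x0 t)) +
        KQ K (cx K x).1 (cx K x).2.1 (fun t i j => qB q U K Q3 t (ix t x0) i j) (b x0))) *
        2 ^ ρ := by
    intro x0 _
    have h1 := pn_GR (N := K) (R := (cx K x).2.2) (S := (cx K x).2.1) (T := (cx K x).1) (r := ρ)
      hr.le (c := cP o x0) (cP_pl ho x0) (d := d) (by rw [abs_le]; constructor <;> omega)
      (sq_nonneg (q.th s r)) (sq_nonneg (q.th s r))
      (QA := fun t i j => qA q U K Q1 t (ix t x0) i j)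
      (QB := fun t i j => qB q U K Q3 t (ix t x0) i j) (A := A x0) (b := b x0)
      (fun k hk n' _ m' _ hq z hz y hy => by
        funext i
        exact h.agA x0 k hk n' m' hq z hz y hy)
      (fun k hk n' _ m' _ hq z hz y hy => h.agb x0 k hk n' m' hq z hz y hy)
      (by funext z y; exact h.z0A x0 z y) (by funext z y; exact h.z0b x0 z y)
      (fun t ht n' _ m' _ => cp_of (h.capA x0 t ht n' m'))
      (fun t ht n' _ m' _ => cp_of (h.capb x0 t ht n' m'))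
    rw [kT_eq, kT_eq] at h1
    exact h1
  refine (sum_le_sum one).trans ?_
  have q1 := fd_KQA h hK hm X
  have q2 := fd_KQb h hK hm X
  rw [← sum_mul, ← mul_sum, ← mul_sum, sum_add_distrib]
  refine mul_le_mul_of_nonneg_right ?_ (by positivity)
  have q3 := mul_le_mul_of_nonneg_left (add_le_add q1 q2)
    (by positivity : (0 : ℝ) ≤ q.th s r ^ 2 + q.th s r ^ 2)
  have q4 := mul_le_mul_of_nonneg_left q3 (by norm_num : (0 : ℝ) ≤ 1085)
  refine q4.trans (le_of_eq ?_)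
  unfold mN
  ring

theorem card3 (M : Pt) : (rt M).card = 3 := by
  unfold rt
  rw [Int.card_Icc]
  omega

/-- the lines of the killed input in the direction of `x0` -/
theorem line_kF {e cP Λ : ℝ} {a : ℤ × ℤ → ℝ} {F : ℕ → Pt → ℝ} {Q : ℕ → Pt → Prop}
    (hB : BSl n e cP F Q) (he : 0 ≤ e) (hK : K ≤ n) {k : ℕ} (hk : k ≤ K) (j x1 x3 : ℤ) :
    ∑ x0 ∈ iv k j, kF Λ a K F k (x0, x1, x3) ^ 2 ≤ e * 2 ^ k := by
  cases k with
  | zero =>
    have e0 : ∀ x0 ∈ iv 0 j, kF Λ a K F 0 (x0, x1, x3) ^ 2 = 0 := by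
      intro x0 _
      unfold kF
      rw [if_pos (Or.inl rfl)]
      norm_num
    rw [sum_congr rfl e0, sum_const_zero]
    positivity
  | succ k =>
    have h1 : ∀ x0 ∈ iv (k + 1) j, kF Λ a K F (k + 1) (x0, x1, x3) ^ 2 ≤
        F (k + 1) (x0, x1, x3) ^ 2 := by
      intro x0 _
      unfold kF
      by_cases hq : k + 1 = 0 ∨ sst Λ a K (k + 1) x1 x3
      · rw [if_pos hq, zero_pow two_ne_zero]
        exact sq_nonneg _
      · rw [if_neg hq]
    refine (sum_le_sum h1).trans ?_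
    rw [H103.sum_iv_two k j fun x0 => F (k + 1) (x0, x1, x3) ^ 2]
    have a1 := hB.l0 k (by omega) (2 * j) x1 x3
    have a2 := hB.l0 k (by omega) (2 * j + 1) x1 x3
    refine (add_le_add a1 a2).trans (le_of_eq ?_)
    rw [pow_succ]
    ring

/-- **The bundle of the flow part gives the data of the near term.** -/
theorem pnd (h : FDs q n ez F1 F2 F3 K x s r U g u v A b C Q1 Q2 Q3 v') (hK : K ≤ n)
    (hez : 0 ≤ ez) (hm : 0 ≤ q.CD * (q.Lm * s)) (hcP : 0 ≤ q.cP) {o : ℤ} (ho : o = 1 ∨ o = -1) :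
    PNd o K x ez ((432000 * (3 * (1868 * (12736 * 12 + 16080) * 4)) +
      17100 * (3 * (1085 * 4))) * mN q K s r) v A b C := by
  have m0 : 0 ≤ mN q K s r := by
    unfold mN
    have : 0 ≤ (q.cP + 2) * 8 ^ K := by positivity
    exact mul_nonneg (sq_nonneg _) (mul_nonneg hm this)
  have c3 : ((rt (cx K x)).card : ℝ) = 3 := by
    rw [card3]
    norm_num
  refine ⟨⟨fun x0 k x3 x1 => kF q.Lm U.2.1 K F2 k (x0, x1, x3), v',
    fun x1 x3 => h.v_or x1 x3, fun x0 k x3 x1 => h.C_eq x0 k x3 x1,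
    fun k hk j x1 x3 => line_kF h.B2 hez hK hk j x1 x3⟩, ?_⟩
  refine ⟨3 * (1868 * (12736 * 12 + 16080) * 4 * mN q K s r), 3 * (1085 * 4 * mN q K s r),
    by positivity, fun d hd1 hd2 => ?_, fun ρ hr d hd1 hd2 => ?_, le_of_eq (by ring)⟩
  · refine (sum_le_sum fun t _ => rootN h hK hm ho t hd1 hd2).trans (le_of_eq ?_)
    rw [sum_const, nsmul_eq_mul, c3]
  · refine (sum_le_sum fun t _ => rootG h hK hm ho t hr hd1 hd2).trans (le_of_eq ?_)
    rw [sum_const, nsmul_eq_mul, c3]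
    ring

/-- the constant of the near term -/
def cN : ℝ := 432000 * (3 * (1868 * (12736 * 12 + 16080) * 4)) + 17100 * (3 * (1085 * 4))

theorem cN_nonneg : 0 ≤ cN := by
  unfold cN
  norm_num

/-- **The near term of the flow part.** -/
theorem leafN : LeafN := by
  refine partF_PN (fun p => cN * (|p.CD| * (|p.cP| + 2))) (fun p => ?_) (fun p t => rfl) ?_
  · have := cN_nonneg
    positivity
  intro ι _ _ p n ez F1 F2 F3 o K x s r U g u v A b C ht ht1 hKt he hcP hL hCD he0 hk3 hc hd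
    hU1 hU3 hE2 ho hK hs hr hcls hD
  obtain ⟨Q1, Q2, Q3, v', h⟩ := hD
  have hLm : 0 ≤ p.Lm := by
    unfold H401.Num.Lm
    positivity
  have hm : 0 ≤ p.CD * (p.Lm * s) := by
    have : 0 ≤ p.CD := by linarith
    positivity
  have h1 := pnd h hK hE2.1 hm hcP ho
  obtain ⟨hC, BN, BG, hG0, hN, hG, hB⟩ := h1
  refine ⟨hC, BN, BG, hG0, hN, hG, hB.trans ?_⟩
  have e1 : |p.CD| = p.CD := abs_of_nonneg (by linarith)
  have e2 : |p.cP| = p.cP := abs_of_nonneg hcP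
  have e3 := H401.Num.th_sq (p := p) ht hs hr
  have e4 : √s * s = s ^ (3 / 2 : ℝ) := by
    rw [Real.sqrt_eq_rpow]
    nth_rewrite 2 [← Real.rpow_one s]
    rw [← Real.rpow_add hs]
    norm_num
  have e5 : p.t ^ (2 - 2 * p.k3) * p.Lm ≤ p.t ^ (2 - 2 * p.k3 - 8 * p.c - 8 * p.d) := by
    unfold H401.Num.Lm
    rw [← Real.rpow_add ht]
    exact Real.rpow_le_rpow_of_exponent_ge ht ht1 (by linarith)
  unfold mN
  rw [e1, e2, e3]
  have hr0 : 0 < r := by linarith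
  have w0 : 0 ≤ cN * (p.CD * (p.cP + 2)) * (s ^ (3 / 2 : ℝ) * r ^ (2 * p.k3) * 8 ^ K) := by
    have := cN_nonneg
    have : 0 ≤ p.CD := by linarith
    positivity
  calc (432000 * (3 * (1868 * (12736 * 12 + 16080) * 4)) + 17100 * (3 * (1085 * 4))) *
        (p.t ^ (2 - 2 * p.k3) * √s * r ^ (2 * p.k3) *
          (p.CD * (p.Lm * s) * ((p.cP + 2) * 8 ^ K)))
      = cN * (p.CD * (p.cP + 2)) * ((√s * s) * r ^ (2 * p.k3) * 8 ^ K) *
        (p.t ^ (2 - 2 * p.k3) * p.Lm) := by unfold cN; ring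
    _ = cN * (p.CD * (p.cP + 2)) * (s ^ (3 / 2 : ℝ) * r ^ (2 * p.k3) * 8 ^ K) *
        (p.t ^ (2 - 2 * p.k3) * p.Lm) := by rw [e4]
    _ ≤ cN * (p.CD * (p.cP + 2)) * (s ^ (3 / 2 : ℝ) * r ^ (2 * p.k3) * 8 ^ K) *
        p.t ^ (2 - 2 * p.k3 - 8 * p.c - 8 * p.d) := mul_le_mul_of_nonneg_left e5 w0
    _ = cN * (p.CD * (p.cP + 2)) * (p.t ^ (2 - 2 * p.k3 - 8 * p.c - 8 * p.d) *
        s ^ (3 / 2 : ℝ) * r ^ (2 * p.k3) * 8 ^ K) := by ring

end

end Vale.Agent.P141.H56.Pn
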