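import Vale.Agent.P141.H677.SkelTF
import Vale.Agent.P141.H483.QSum

/-!
# P141, line (A): the near term of the flow part, layer 1

Letters of `H677.SkelTF`.

* `PN_cs` : `PN ≤ √E1 √E2`, `E1` the energy of the steps of the slot, `E2` the energy of the pair
  `(A, b)` tested on the difference of the kernels;
* `E1_le` : `E1` by `H483.q_stack`;
* `E2_le` : `E2` by the neighbour sums `NB` and the gaps `GR` of `H352.near_scale`.
-/

namespace Vale.Agent.P141.H56.Pn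

open Finset Matrix
open Vale.Agent.P141.PL (Pt iv hs ix mem_iv ix_ix cb mem_cb cx)
open Vale.Agent.P141.PL.H560 (cbs bx0)
open Vale.Agent.P141.H352 (In In2 p sq NB gV Cmp)
open Vale.Agent.P141.H795 (kp)
open Vale.Agent.P141.H677
open Vale.Agent.P141.H677.Sk
open Vale.Agent.P141.H652 (GR)

noncomputable section

open scoped Classical

variable {ι : Type} [Fintype ι] [DecidableEq ι]

/-- the step of the slot on `C` -/
def wv (Al : ℕ → Pt → Prop) (o : ℤ) (K : ℕ) (M : Pt) (sg : ℕ → Pt → ℝ) (l : ℝ)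
    (u : ℤ → ℤ → ι → ℝ) (C : FamV ι) (x0 : ℤ) (k : ℕ) (x1 x3 : ℤ) : ι → ℝ :=
  (sl Al o K M sg l u x0 k x3 x1 - sl Al o K M sg l u x0 (k + 1) x3 x1) *ᵥ C x0 (k + 1) x3 x1

/-- the difference of the kernels -/
def dk (o x0 : ℤ) (k : ℕ) (y : Pt) : ℝ := p (k + 1) (cP o x0 (k + 1)) y - kp (-x0) (k + 1) y

/-- the pair `(A, b)` as a vector function -/
def qv (A : FamA) (b : FamV ι) (x0 : ℤ) (k : ℕ) (y : Pt) (i : ι) : ℝ :=
  A x0 (k + 1) y.2.2 y.2.1 * b x0 (k + 1) y.1 y.2.1 i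

/-- energy of the steps of the slot -/
def E1 (Al : ℕ → Pt → Prop) (o : ℤ) (K : ℕ) (M : Pt) (sg : ℕ → Pt → ℝ) (l : ℝ)
    (u : ℤ → ℤ → ι → ℝ) (C : FamV ι) : ℝ :=
  ∑ t ∈ rt M, ∑ x0 ∈ iv K t, ∑ k ∈ range K, ∑ x1 ∈ iv K M.1, ∑ x3 ∈ iv K M.2.2,
    wv Al o K M sg l u C x0 k x1 x3 ⬝ᵥ wv Al o K M sg l u C x0 k x1 x3

/-- energy of the pair on the difference of the kernels -/
def E2 (o : ℤ) (K : ℕ) (M : Pt) (A : FamA) (b : FamV ι) : ℝ :=
  ∑ t ∈ rt M, ∑ x0 ∈ iv K t, ∑ k ∈ range K, ∑ x1 ∈ iv K M.1, ∑ x3 ∈ iv K M.2.2,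
    In2 K M.2.1 (dk o x0 k) (qv A b x0 k) x1 x3 ⬝ᵥ In2 K M.2.1 (dk o x0 k) (qv A b x0 k) x1 x3

omit [DecidableEq ι] in
theorem dot_nn (a : ι → ℝ) : 0 ≤ a ⬝ᵥ a := by
  unfold dotProduct
  exact sum_nonneg fun i _ => mul_self_nonneg _

omit [DecidableEq ι] in
/-- Cauchy-Schwarz for a double sum of products of square roots -/
theorem cs_two (M : Pt) (K : ℕ) (f g : ℤ → ℝ) (hf : ∀ x, 0 ≤ f x) (hg : ∀ x, 0 ≤ g x) :
    ∑ t ∈ rt M, ∑ x0 ∈ iv K t, √(f x0) * √(g x0) ≤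
      √(∑ t ∈ rt M, ∑ x0 ∈ iv K t, f x0) * √(∑ t ∈ rt M, ∑ x0 ∈ iv K t, g x0) := by
  have h1 : ∀ t, ∑ x0 ∈ iv K t, √(f x0) * √(g x0) ≤
      √(∑ x0 ∈ iv K t, f x0) * √(∑ x0 ∈ iv K t, g x0) := by
    intro t
    rw [← Real.sqrt_mul (sum_nonneg fun x _ => hf x)]
    refine Real.le_sqrt_of_sq_le ?_
    refine (sum_mul_sq_le_sq_mul_sq _ _ _).trans (le_of_eq ?_)
    congr 1 <;> exact sum_congr rfl fun x _ => Real.sq_sqrt (by first | exact hf x | exact hg x)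
  refine (sum_le_sum fun t _ => h1 t).trans ?_
  rw [← Real.sqrt_mul (sum_nonneg fun t _ => sum_nonneg fun x _ => hf x)]
  refine Real.le_sqrt_of_sq_le ?_
  refine (sum_mul_sq_le_sq_mul_sq _ _ _).trans (le_of_eq ?_)
  congr 1 <;> exact sum_congr rfl fun t _ => Real.sq_sqrt (sum_nonneg fun x _ => by
    first | exact hf x | exact hg x)

/-- the form of the near term -/
theorem GS_step (Al : ℕ → Pt → Prop) (o : ℤ) (K : ℕ) (M : Pt) (sg : ℕ → Pt → ℝ) (l : ℝ)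
    (u : ℤ → ℤ → ι → ℝ) (A : FamA) (b C : FamV ι) (x0 : ℤ) (k : ℕ) (y : Pt) :
    GS Al o K M sg l u A b C x0 k (k + 1) y - GS Al o K M sg l u A b C x0 (k + 1) (k + 1) y =
      wv Al o K M sg l u C x0 k y.1 y.2.2 ⬝ᵥ qv A b x0 k y := by
  unfold GS GA wv
  have e : qv A b x0 k y = A x0 (k + 1) y.2.2 y.2.1 • b x0 (k + 1) y.1 y.2.1 := by
    funext i
    unfold qv
    rw [Pi.smul_apply, smul_eq_mul]
  rw [e, dotProduct_smul, smul_eq_mul, sub_mulVec, sub_dotProduct, mul_sub,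
    dotProduct_comm (sl Al o K M sg l u x0 k y.2.2 y.1 *ᵥ C x0 (k + 1) y.2.2 y.1),
    dotProduct_comm (sl Al o K M sg l u x0 (k + 1) y.2.2 y.1 *ᵥ C x0 (k + 1) y.2.2 y.1)]

/-- **Two factors.** -/
theorem PN_cs (Al : ℕ → Pt → Prop) (o : ℤ) (K : ℕ) (M : Pt) (sg : ℕ → Pt → ℝ) (l : ℝ)
    (u : ℤ → ℤ → ι → ℝ) (A : FamA) (b C : FamV ι) :
    PN ι Al o K M sg l u A b C ≤ √(E1 Al o K M sg l u C) * √(E2 o K M A b) := by
  have h1 : ∀ x0 : ℤ, ∑ k ∈ range K,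
      |In K M (fun y => p (k + 1) (cP o x0 (k + 1)) y - kp (-x0) (k + 1) y) (fun y =>
        GS Al o K M sg l u A b C x0 k (k + 1) y -
          GS Al o K M sg l u A b C x0 (k + 1) (k + 1) y)| ≤
      √(∑ k ∈ range K, ∑ x1 ∈ iv K M.1, ∑ x3 ∈ iv K M.2.2,
        wv Al o K M sg l u C x0 k x1 x3 ⬝ᵥ wv Al o K M sg l u C x0 k x1 x3) *
      √(∑ k ∈ range K, ∑ x1 ∈ iv K M.1, ∑ x3 ∈ iv K M.2.2,
        In2 K M.2.1 (dk o x0 k) (qv A b x0 k) x1 x3 ⬝ᵥ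
          In2 K M.2.1 (dk o x0 k) (qv A b x0 k) x1 x3) := by
    intro x0
    refine le_trans (le_of_eq ?_) (H352.near_two K K M (fun k => dk o x0 k)
      (fun k => wv Al o K M sg l u C x0 k) (fun k => qv A b x0 k))
    refine sum_congr rfl fun k _ => ?_
    congr 1
    refine congrArg (In K M (dk o x0 k)) (funext fun y => ?_)
    exact GS_step Al o K M sg l u A b C x0 k y
  unfold PN E1 E2
  refine (sum_le_sum fun t _ => sum_le_sum fun x0 _ => h1 x0).trans ?_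
  exact cs_two M K _ _
    (fun x0 => sum_nonneg fun k _ => sum_nonneg fun _ _ => sum_nonneg fun _ _ => dot_nn _)
    (fun x0 => sum_nonneg fun k _ => sum_nonneg fun _ _ => sum_nonneg fun _ _ => dot_nn _)

/-! ### The first factor -/

/-- one step of the slot as a node -/
theorem wv_eq (Al : ℕ → Pt → Prop) (o : ℤ) (K : ℕ) (M : Pt) (sg : ℕ → Pt → ℝ) (l : ℝ)
    (u : ℤ → ℤ → ι → ℝ) {C : FamV ι} {φ : ℤ → ℕ → ℤ → ℤ → ℝ} {v : ℤ → ℤ → ι → ℝ}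
    (hC : ∀ x0 k x3 x1, C x0 k x3 x1 = φ x0 k x3 x1 • v x1 x3) {x0 : ℤ} {k : ℕ} (hk : k < K)
    (x1 x3 : ℤ) : wv Al o K M sg l u C x0 k x1 x3 =
      (thN Al o K M sg x0 x3 x1 (k + 1) * φ x0 (k + 1) x3 x1) •
        (MT l (KT l u x1) (k + 1) (nd3 o x0 x3 x1 (k + 1)).2.1 *ᵥ v x1 x3) := by
  unfold wv sl
  rw [RT_step hk, add_sub_cancel_right, hC, smul_mulVec, mulVec_smul, smul_smul]

/-- **The energy of the steps of the slot.** -/
theorem E1_le {Al : ℕ → Pt → Prop} {o : ℤ} {K : ℕ} {x : Pt} {sg : ℕ → Pt → ℝ} {l e P : ℝ}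
    {u v : ℤ → ℤ → ι → ℝ} {C : FamV ι} {φ : ℤ → ℕ → ℤ → ℤ → ℝ} (ho : o = 1 ∨ o = -1)
    (hl : 0 < l) (hsg : ∀ k m, |sg k m| ≤ 1)
    (hC : ∀ x0 k x3 x1, C x0 k x3 x1 = φ x0 k x3 x1 • v x1 x3)
    (hv : ∀ x1 ∈ iv K (cx K x).1, ∀ θ : ι → ℝ,
      ∑ x3 ∈ iv K (cx K x).2.2, (θ ⬝ᵥ v x1 x3) ^ 2 ≤ P * (θ ⬝ᵥ θ)) (he : 0 ≤ e)
    (hφ : ∀ k ≤ K, ∀ j x1 x3, ∑ x0 ∈ iv k j, φ x0 k x3 x1 ^ 2 ≤ e * 2 ^ k) :
    E1 Al o K (cx K x) sg l u C ≤ e * (2 ^ K * ((2 * l)⁻¹ *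
      (P * ∑ x1 ∈ iv K (cx K x).1, (GT u x1 K (cx K x).2.1).trace))) := by
  have h := H483.q_stack (A := Al) (v := v) (u := u) ho hl hsg x hv
    (W := fun k x0 x1 x3 => φ x0 k x3 x1 ^ 2) (fun _ _ _ _ => sq_nonneg _) he hφ 0
  have e0 : ((0 : ℝ) ^ 2)⁻¹ = 0 := by norm_num
  simp only [e0, zero_mul, add_zero, mul_zero, one_mul] at h
  refine le_trans ?_ h
  unfold E1
  refine sum_le_sum fun t _ => sum_le_sum fun x0 _ => ?_
  have e2 : ∀ f : ℕ → ℝ, ∑ k ∈ Icc 1 K, f k = ∑ j ∈ range K, f (j + 1) := by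
    intro f
    rw [range_eq_Ico, sum_Ico_add' f 0 K 1]
    rfl
  rw [e2]
  refine sum_le_sum fun k hk => ?_
  rw [mem_range] at hk
  rw [H483.sN_points (A := Al) (o := o) (M := cx K x) (by omega : k + 1 ≤ K) x0
    (fun m x1 x3 => φ x0 (k + 1) x3 x1 ^ 2 *
      ((MT l (KT l u x1) (k + 1) m.2.1 *ᵥ v x1 x3) ⬝ᵥ
        (MT l (KT l u x1) (k + 1) m.2.1 *ᵥ v x1 x3)))]
  refine sum_le_sum fun x1 _ => sum_le_sum fun x3 _ => ?_
  rw [wv_eq Al o K (cx K x) sg l u hC hk, smul_dotProduct, dotProduct_smul, smul_eq_mul,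
    smul_eq_mul, ← mul_assoc]
  have hd := dot_nn (MT l (KT l u x1) (k + 1) (nd3 o x0 x3 x1 (k + 1)).2.1 *ᵥ v x1 x3)
  split_ifs with hn
  · refine mul_le_mul_of_nonneg_right ?_ hd
    have h1 : thN Al o K (cx K x) sg x0 x3 x1 (k + 1) ^ 2 ≤ 1 := by
      refine (H483.thN_sq_le hsg (k + 1) x0 x3 x1).trans ?_
      split_ifs <;> norm_num
    have h2 := sq_nonneg (φ x0 (k + 1) x3 x1)
    nlinarith
  · have : thN Al o K (cx K x) sg x0 x3 x1 (k + 1) = 0 := by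
      unfold thN
      rw [if_neg hn]
    rw [this]
    simp

/-! ### The second factor -/

/-- the planes of the node forms and the plane of the kernel `kp` -/
theorem cmp3 {o : ℤ} (ho : o = 1 ∨ o = -1) (x0 : ℤ) (k : ℕ) : Cmp 3 (cP o x0) (-x0) k := by
  unfold Cmp cP
  obtain ⟨h1, h2⟩ := H352.cell_bd k x0
  have hp : (0 : ℤ) < 2 ^ k := by positivity
  have e : (2 : ℤ) ^ k * (o - 2 - ix k x0) - -x0 = 2 ^ k * (o - 2) + (x0 - 2 ^ k * ix k x0) := by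
    ring
  rw [e, abs_le]
  push_cast
  rcases ho with rfl | rfl <;> constructor <;> nlinarith

theorem lip3 (k : ℕ) (z : ℤ) : |H795.KK k (z + 1) - H795.KK k z| ≤ (8 / 3) / 4 ^ k := by
  refine (H795.KK_lip k z).trans (le_of_eq ?_)
  have h4 : (4 : ℝ) ^ k = 2 ^ k * 2 ^ k := by rw [← mul_pow]; norm_num
  rw [h4, div_eq_mul_inv (8 / 3 : ℝ), mul_inv ((2 : ℝ) ^ k)]

omit [DecidableEq ι] in
/-- **The energy of the pair on the difference of the kernels** : neighbour differences and gaps of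
the families of time `k + 1`. -/
theorem E2_le {o : ℤ} (ho : o = 1 ∨ o = -1) (K : ℕ) (M : Pt) (A : FamA) (b : FamV ι) :
    E2 o K M A b ≤ ∑ t ∈ rt M, ∑ x0 ∈ iv K t, ∑ k ∈ Icc 1 K,
      (24000 * ∑ d ∈ Ico (-9 : ℤ) 9, NB K M.2.2 M.2.1 M.1 (A x0 k) (b x0 k) k
        (cP o x0 k + d) +
      300 * ∑ j ∈ range k, (1 / 3 : ℝ) ^ (k - (j + 1)) * ∑ d ∈ Icc (-9 : ℤ) 9,
        GR K M.2.2 M.2.1 M.1 (j + 1) (k - (j + 1)) (cP o x0 k + d)
          (gV (A x0 k) (b x0 k) k (j + 1))) := by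
  unfold E2
  refine sum_le_sum fun t _ => sum_le_sum fun x0 _ => ?_
  have e2 : ∀ f : ℕ → ℝ, ∑ k ∈ Icc 1 K, f k = ∑ j ∈ range K, f (j + 1) := by
    intro f
    rw [range_eq_Ico, sum_Ico_add' f 0 K 1]
    rfl
  rw [e2]
  refine sum_le_sum fun k hk => ?_
  rw [mem_range] at hk
  have h := H352.near_scale (N := K) (K := k + 1) (by omega) (cmp3 ho x0 (k + 1)) M.2.2 M.2.1 M.1
    (lip3 (k + 1)) (A x0 (k + 1)) (b x0 (k + 1))
  refine le_trans (le_of_eq ?_) (h.trans ?_)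
  · rfl
  · norm_num
    refine add_le_add ?_ ?_
    · refine mul_le_mul_of_nonneg_right (by norm_num) ?_
      refine sum_nonneg fun d _ => ?_
      unfold NB
      exact sum_nonneg fun _ _ => sum_nonneg fun _ _ => sum_nonneg fun _ _ =>
        sum_nonneg fun _ _ => H352.sq_nonneg' _
    · refine mul_le_mul_of_nonneg_right (by norm_num) ?_
      refine sum_nonneg fun j _ => mul_nonneg (by positivity) (sum_nonneg fun d _ => ?_)
      unfold H652.GR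
      refine mul_nonneg (by positivity) (sum_nonneg fun _ _ => sum_nonneg fun _ _ => ?_)
      split_ifs
      · unfold gV
        exact mul_nonneg (by positivity) (sum_nonneg fun _ _ => sum_nonneg fun _ _ =>
          H352.sq_nonneg' _)
      · exact le_rfl

end

end Vale.Agent.P141.H56.Pn
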