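import Vale.Agent.P141.H56.PnSum2
import Vale.Agent.P141.H677.FDb
import Vale.Agent.P141.H769.MomLft
import Vale.Agent.P141.H550.Pair

/-!
# P141, line (A): the near term of the flow part, layer 3

The near term in the letters of `H401.PartF`.

* `PNd` : what is used of the families, with one number `B`;
* `PN_cls` : the near term of class data;
* `pn_price` : the exponents;
* `partF_PN` : the price of the near term for every bundle which gives `PNd` with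
  `B = Q t ^ (2 - 2 k3 - 8 c - 8 d) s ^ (3/2) r ^ (2 k3) 8 ^ K`.
-/

namespace Vale.Agent.P141.H56.Pn

open Finset Matrix
open Vale.Agent.P141.PL (Pt iv hs ix mem_iv ix_ix cb mem_cb cx)
open Vale.Agent.P141.PL.H315 (Tri A2 avg)
open Vale.Agent.P141.H48 (US ES cst)
open Vale.Agent.P141.H352 (gV)
open Vale.Agent.P141.H677
open Vale.Agent.P141.H677.Sk (FamA FamV PN fN)
open Vale.Agent.P141.H652 (GR)
open Vale.Agent.P141.H305 (ClsM kapM price_mono)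
open Vale.Agent.P141.H401 (PartX PartF Bun)

noncomputable section

open scoped Classical

/-- the near term in the letters of `SkelTF2` -/
theorem fN_eq {ι : Type} [Fintype ι] [DecidableEq ι] (l : ℝ) (o : ℤ) (Al : ℕ → Pt → Prop) (K : ℕ)
    (x : Pt) (u : ℤ → ℤ → ι → ℝ) (A : FamA) (b C : FamV ι) (sg : ℕ → Pt → ℝ) :
    fN ι l o Al K x u A b C sg = PN ι Al o K (cx K x) sg l u A b C := rfl

/-- **What the near term uses of the families.** -/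
structure PNd {ι : Type} [Fintype ι] [DecidableEq ι] (o : ℤ) (K : ℕ) (x : Pt) (ez B : ℝ)
    (v : ℤ → ℤ → ι → ℝ) (A : FamA) (b C : FamV ι) : Prop where
  C_eq : ∃ (φ : ℤ → ℕ → ℤ → ℤ → ℝ) (v' : ℤ → ℤ → ι → ℝ), (∀ x1 x3, v' x1 x3 = v x1 x3 ∨
    v' x1 x3 = 0) ∧ (∀ x0 k x3 x1, C x0 k x3 x1 = φ x0 k x3 x1 • v' x1 x3) ∧
    ∀ k ≤ K, ∀ j x1 x3, ∑ x0 ∈ iv k j, φ x0 k x3 x1 ^ 2 ≤ ez * 2 ^ k
  num : ∃ BN BG : ℝ, 0 ≤ BG ∧
    (∀ d : ℤ, -8 ≤ d → d ≤ 9 → ∑ t ∈ rt (cx K x), ∑ x0 ∈ iv K t,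
      ∑ k ∈ Icc 1 K, WS K (cx K x).2.2 (cx K x).2.1 (cx K x).1 (A x0 k) (b x0 k) k
        (cP o x0 k + d) ≤ BN) ∧
    (∀ r < K, ∀ d : ℤ, -9 ≤ d → d ≤ 9 → ∑ t ∈ rt (cx K x), ∑ x0 ∈ iv K t,
      ∑ k ∈ range (K - r), GR K (cx K x).2.2 (cx K x).2.1 (cx K x).1 (k + 1) r
        (cP o x0 (k + r + 1) + d)
        (gV (A x0 (k + r + 1)) (b x0 (k + r + 1)) (k + r + 1) (k + 1)) ≤ BG * 2 ^ r) ∧
    432000 * BN + 17100 * BG ≤ B

section cls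

variable {ι : Type} [Fintype ι] [DecidableEq ι] {K : ℕ} {x : Pt} {s r P κ : ℝ} {U : Tri}
  {g : ℤ → ℤ → ℝ} {u v : ℤ → ℤ → ι → ℝ}

omit [DecidableEq ι] in
/-- the trace of the label matrices of the root -/
theorem tr_root (C : ClsM K x s r P κ U g u v) :
    ∑ x1 ∈ iv K (cx K x).1, (GT u x1 K (cx K x).2.1).trace ≤ 2 ^ K * s := by
  have h := C.U_u2
  unfold A2 at h
  rw [H769.iv_pt, H769.iv_pt, H550.avg_prod] at h
  unfold avg at h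
  simp only [PL.card_iv] at h
  have h1 : ∀ x1 ∈ iv K (cx K x).1, (GT u x1 K (cx K x).2.1).trace ≤
      (((2 ^ K : ℕ) : ℝ))⁻¹ * ∑ y ∈ iv K (ix K x.2.1), U.1 (x1, y) ^ 2 := by
    intro x1 hx1
    rw [GT_trace]
    push_cast
    refine mul_le_mul_of_nonneg_left (sum_le_sum fun y hy => C.u_le x1 hx1 y hy) (by positivity)
  refine (sum_le_sum h1).trans ?_
  have h2 := mul_le_mul_of_nonneg_left h (by positivity : (0 : ℝ) ≤ ((2 ^ K : ℕ) : ℝ))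
  rw [← mul_assoc, mul_inv_cancel₀ (by positivity), one_mul] at h2
  push_cast at h2 ⊢
  exact h2

omit [DecidableEq ι] in
/-- the columns of `v` on the root -/
theorem v_root (C : ClsM K x s r P κ U g u v) {v' : ℤ → ℤ → ι → ℝ}
    (hv : ∀ x1 x3, v' x1 x3 = v x1 x3 ∨ v' x1 x3 = 0) :
    ∀ x1 ∈ iv K (cx K x).1, ∀ θ : ι → ℝ,
      ∑ x3 ∈ iv K (cx K x).2.2, (θ ⬝ᵥ v' x1 x3) ^ 2 ≤ 2 ^ K * P * (θ ⬝ᵥ θ) := by
  intro x1 hx1 θ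
  have h := C.v_pot x1 hx1 θ
  rw [H769.iv_pt] at h
  unfold avg at h
  rw [PL.card_iv] at h
  have h2 := mul_le_mul_of_nonneg_left h (by positivity : (0 : ℝ) ≤ ((2 ^ K : ℕ) : ℝ))
  rw [← mul_assoc, mul_inv_cancel₀ (by positivity), one_mul] at h2
  push_cast at h2
  calc ∑ x3 ∈ iv K (cx K x).2.2, (θ ⬝ᵥ v' x1 x3) ^ 2
      ≤ ∑ y ∈ iv K (ix K x.2.2), (v x1 y ⬝ᵥ θ) ^ 2 := by
        refine sum_le_sum fun y _ => ?_
        rcases hv x1 y with h5 | h5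
        · rw [h5, dotProduct_comm]
        · rw [h5, dotProduct_zero, zero_pow two_ne_zero]
          exact sq_nonneg _
    _ ≤ 2 ^ K * (P * (θ ⬝ᵥ θ)) := h2
    _ = 2 ^ K * P * (θ ⬝ᵥ θ) := by ring

/-- **The near term of class data.** -/
theorem PN_cls (Cl : ClsM K x s r P κ U g u v) {Al : ℕ → Pt → Prop} {o : ℤ}
    {sg : ℕ → Pt → ℝ} {l ez B : ℝ} {A : FamA} {b C : FamV ι} (ho : o = 1 ∨ o = -1) (hl : 0 < l)
    (hP : 0 ≤ P) (hez : 0 ≤ ez) (hsg : ∀ k m, |sg k m| ≤ 1) (D : PNd o K x ez B v A b C) :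
    PN ι Al o K (cx K x) sg l u A b C ≤ √(8 ^ K * (ez * ((2 * l)⁻¹ * (P * s)))) * √B := by
  obtain ⟨φ, v', hv', hC, hφ⟩ := D.C_eq
  obtain ⟨BN, BG, hG0, hN, hG, hB⟩ := D.num
  refine (PN_root (Al := Al) (P := 2 ^ K * P) ho hl hsg hC (v_root Cl hv') hez hφ hG0 hN
    hG).trans ?_
  refine mul_le_mul (Real.sqrt_le_sqrt ?_) (Real.sqrt_le_sqrt hB) (Real.sqrt_nonneg _)
    (Real.sqrt_nonneg _)
  have h1 := mul_le_mul_of_nonneg_left (tr_root Cl) (by positivity : (0 : ℝ) ≤ 2 ^ K * P)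
  have h2 := mul_le_mul_of_nonneg_left h1 (by positivity : (0 : ℝ) ≤ (2 * l)⁻¹)
  have h3 := mul_le_mul_of_nonneg_left h2 (by positivity : (0 : ℝ) ≤ ez * 2 ^ K)
  have e8 : (8 : ℝ) ^ K = 2 ^ K * (2 ^ K * 2 ^ K) := by rw [← mul_pow, ← mul_pow]; norm_num
  rw [e8]
  calc ez * (2 ^ K * ((2 * l)⁻¹ * (2 ^ K * P * ∑ x1 ∈ iv K (cx K x).1,
        (GT u x1 K (cx K x).2.1).trace)))
      = ez * 2 ^ K * ((2 * l)⁻¹ * (2 ^ K * P * ∑ x1 ∈ iv K (cx K x).1,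
        (GT u x1 K (cx K x).2.1).trace)) := by ring
    _ ≤ ez * 2 ^ K * ((2 * l)⁻¹ * (2 ^ K * P * (2 ^ K * s))) := h3
    _ = 2 ^ K * (2 ^ K * 2 ^ K) * (ez * ((2 * l)⁻¹ * (P * s))) := by ring

end cls

/-! ### The exponents -/

/-- **The price.** -/
theorem pn_price {t s r L Q e0 k3 c d ez : ℝ} (K : ℕ) (ht : 0 < t) (ht1 : t ≤ 1) (hs : 0 < s)
    (hr : 1 ≤ r) (hL : 0 ≤ L) (hQ : 0 ≤ Q) (he0 : 0 < e0)
    (hk : k3 ≤ e0 / 8) (hc : c ≤ e0 / 64) (hd : d ≤ e0 / 64) :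
    √(8 ^ K * (ez * ((2 * (t ^ (2 - e0) * √s * r ^ e0))⁻¹ * (L * t ^ (2 - c) * √s * s)))) *
      √(Q * (t ^ (2 - 2 * k3 - 8 * c - 8 * d) * s ^ (3 / 2 : ℝ) * r ^ (2 * k3) * 8 ^ K)) ≤
    √(L * Q) * (t ^ (1 + e0 / 8) * s ^ (5 / 4 : ℝ) * √ez * 8 ^ K) * r ^ (-(e0 / 4)) := by
  have hr0 : 0 < r := by linarith
  have hsq : 0 < √s := Real.sqrt_pos.2 hs
  rcases le_total ez 0 with hez | hez
  · have h0 : √(8 ^ K * (ez * ((2 * (t ^ (2 - e0) * √s * r ^ e0))⁻¹ *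
        (L * t ^ (2 - c) * √s * s)))) = 0 := by
      refine Real.sqrt_eq_zero_of_nonpos ?_
      refine mul_nonpos_of_nonneg_of_nonpos (by positivity) ?_
      exact mul_nonpos_of_nonpos_of_nonneg hez (by positivity)
    rw [h0, zero_mul]
    positivity
  rw [← Real.sqrt_mul (by positivity)]
  refine Real.sqrt_le_iff.2 ⟨by positivity, ?_⟩
  have e1 : (t ^ (2 - e0))⁻¹ = t ^ (e0 - 2) := by
    rw [← Real.rpow_neg ht.le]; congr 1; ring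
  have e2 : (r ^ e0)⁻¹ = r ^ (-e0) := (Real.rpow_neg hr0.le _).symm
  have e3 : (√s)⁻¹ * √s = 1 := inv_mul_cancel₀ hsq.ne'
  have e4 : (L * Q : ℝ) = √(L * Q) ^ 2 := (Real.sq_sqrt (by positivity)).symm
  have e5 : ez = √ez ^ 2 := (Real.sq_sqrt hez).symm
  have e6 : s * s ^ (3 / 2 : ℝ) = (s ^ (5 / 4 : ℝ)) ^ 2 := by
    rw [← Real.rpow_natCast, ← Real.rpow_mul hs.le]
    nth_rewrite 1 [← Real.rpow_one s]
    rw [← Real.rpow_add hs]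
    norm_num
  have t1 : t ^ (e0 - 2) * t ^ (2 - c) * t ^ (2 - 2 * k3 - 8 * c - 8 * d) ≤
      (t ^ (1 + e0 / 8)) ^ 2 := by
    rw [← Real.rpow_add ht, ← Real.rpow_add ht, ← Real.rpow_natCast, ← Real.rpow_mul ht.le]
    refine Real.rpow_le_rpow_of_exponent_ge ht ht1 ?_
    push_cast
    linarith
  have r1 : r ^ (-e0) * r ^ (2 * k3) ≤ (r ^ (-(e0 / 4))) ^ 2 := by
    rw [← Real.rpow_add hr0, ← Real.rpow_natCast, ← Real.rpow_mul hr0.le]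
    refine Real.rpow_le_rpow_of_exponent_le hr ?_
    push_cast
    linarith
  have f1 : (2 * (t ^ (2 - e0) * √s * r ^ e0))⁻¹ * (L * t ^ (2 - c) * √s * s) =
      1 / 2 * L * (t ^ (e0 - 2) * t ^ (2 - c)) * s * r ^ (-e0) := by
    rw [mul_inv, mul_inv, mul_inv, e1, e2]
    calc (2 : ℝ)⁻¹ * (t ^ (e0 - 2) * (√s)⁻¹ * r ^ (-e0)) * (L * t ^ (2 - c) * √s * s)
        = (2 : ℝ)⁻¹ * L * (t ^ (e0 - 2) * t ^ (2 - c)) * s * r ^ (-e0) * ((√s)⁻¹ * √s) := by ring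
      _ = 1 / 2 * L * (t ^ (e0 - 2) * t ^ (2 - c)) * s * r ^ (-e0) := by rw [e3]; ring
  rw [f1]
  have hw : (0 : ℝ) ≤ 8 ^ K * 8 ^ K * (L * Q) * ez * (s * s ^ (3 / 2 : ℝ)) := by positivity
  calc 8 ^ K * (ez * (1 / 2 * L * (t ^ (e0 - 2) * t ^ (2 - c)) * s * r ^ (-e0))) *
        (Q * (t ^ (2 - 2 * k3 - 8 * c - 8 * d) * s ^ (3 / 2 : ℝ) * r ^ (2 * k3) * 8 ^ K))
      = 1 / 2 * (8 ^ K * 8 ^ K * (L * Q) * ez * (s * s ^ (3 / 2 : ℝ)) *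
        ((t ^ (e0 - 2) * t ^ (2 - c) * t ^ (2 - 2 * k3 - 8 * c - 8 * d)) *
          (r ^ (-e0) * r ^ (2 * k3)))) := by ring
    _ ≤ 1 * (8 ^ K * 8 ^ K * (L * Q) * ez * (s * s ^ (3 / 2 : ℝ)) *
        ((t ^ (1 + e0 / 8)) ^ 2 * (r ^ (-(e0 / 4))) ^ 2)) := by
        refine mul_le_mul (by norm_num) (mul_le_mul_of_nonneg_left (mul_le_mul t1 r1
          (by positivity) (by positivity)) hw) (by positivity) (by norm_num)
    _ = (√(L * Q) * (t ^ (1 + e0 / 8) * s ^ (5 / 4 : ℝ) * √ez * 8 ^ K) * r ^ (-(e0 / 4))) ^ 2 := by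
        rw [e6]
        nth_rewrite 1 [e4]
        nth_rewrite 1 [e5]
        ring

/-- **The price of the near term.** -/
theorem partF_PN {D : Bun} (Q : H401.Num → ℝ) (hQ0 : ∀ p, 0 ≤ Q p)
    (hQt : ∀ (p : H401.Num) (t : ℝ), Q { p with t := t } = Q p)
    (hD : ∀ (ι : Type) [Fintype ι] [DecidableEq ι] (p : H401.Num) (n : ℕ) (ez : ℝ)
      (F1 F2 F3 : ℕ → Pt → ℝ) (o : ℤ) (K : ℕ) (x : Pt) (s r : ℝ) (U : Tri) (g : ℤ → ℤ → ℝ)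
      (u v : ℤ → ℤ → ι → ℝ) (A : FamA) (b C : FamV ι), 0 < p.t → p.t ≤ 1 → 0 < p.Kt → 1 ≤ p.e →
      0 ≤ p.cP → 1 ≤ p.L → 1 ≤ p.CD → 0 < p.e0 → 0 < p.k3 → 0 ≤ p.c → 0 < p.d →
      US n (p.Kt * p.t ^ (1 - p.c)) p.e p.cP F1 → US n (p.Kt * p.t ^ (1 - p.c)) p.e p.cP F3 →
      ES n ez p.cP F2 → o = 1 ∨ o = -1 → K ≤ n → 0 < s → 1 ≤ r →
      ClsM K x s r (p.L * p.t ^ (2 - p.c) * √s) (kapM p.L p.t p.a s r) U g u v →
      D ι p n ez F1 F2 F3 o K x s r U g u v A b C →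
      PNd o K x ez (Q p * (p.t ^ (2 - 2 * p.k3 - 8 * p.c - 8 * p.d) * s ^ (3 / 2 : ℝ) *
        r ^ (2 * p.k3) * 8 ^ K)) v A b C) :
    PartF D fN := by
  intro a ha ha1
  refine ⟨1, one_pos, fun e0 he0 he0' => ⟨1, one_pos, fun k8 hk8 hk8' =>
    ⟨e0 / 8, by positivity, fun k3 hk3 hk3' => ?_⟩⟩⟩
  refine ⟨e0 / 8, e0 / 64, e0 / 64, e0 / 4, by positivity, by positivity, by positivity,
    by positivity, fun c hc hcc d hd hdd Kt e cP L hK he hcP hL CD hCD => ?_⟩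
  refine ⟨√(L * Q ⟨a, e0, k8, k3, c, d, Kt, e, cP, L, CD, 1⟩), Real.sqrt_nonneg _, ?_⟩
  intro t ht ht1 n ez F1 F2 F3 h1 h3 h2 o ho K hKn x ι _ _ s r U g u v hs hr hcls A b C hDD sg hsg
  have hd1 := hD ι ⟨a, e0, k8, k3, c, d, Kt, e, cP, L, CD, t⟩ n ez F1 F2 F3 o K x s r U g u v A b
    C ht ht1 hK he hcP hL hCD he0 hk3 hc hd h1 h3 h2 ho hKn hs hr hcls hDD
  have hl := H401.Num.lam_pos (p := ⟨a, e0, k8, k3, c, d, Kt, e, cP, L, CD, t⟩) ht hs hr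
  have hP : 0 ≤ L * t ^ (2 - c) * √s := by positivity
  have h := PN_cls (Al := H401.Num.al ⟨a, e0, k8, k3, c, d, Kt, e, cP, L, CD, t⟩ U K) hcls ho hl hP
    h2.1 hsg hd1
  rw [fN_eq]
  refine h.trans ?_
  have e1 : Q ⟨a, e0, k8, k3, c, d, Kt, e, cP, L, CD, 1⟩ =
      Q ⟨a, e0, k8, k3, c, d, Kt, e, cP, L, CD, t⟩ :=
    hQt ⟨a, e0, k8, k3, c, d, Kt, e, cP, L, CD, t⟩ 1
  rw [e1]
  exact pn_price K ht ht1 hs hr (by linarith) (hQ0 _) he0 hk3' hcc hdd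

end

end Vale.Agent.P141.H56.Pn
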