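import Vale.Agent.P141.H56.PnLeaf
import Vale.Agent.P141.H922.NbAB4

/-!
# P141, line (A): the near term of the flow part, layer 2

The right side of `E2_le` in the letters of `H922.NB.nb_closed` and of the gap sums with a fixed
difference of scales.

* `NB_win` : the neighbour sum on one plane is at most a window sum of `H922.NB`;
* `nb_part`, `gr_part` : the sums over the scales and the offsets;
* `E2_sum` : `E2` from one number `N1 x0` and one number `G x0` for every `x0`.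
-/

namespace Vale.Agent.P141.H56.Pn

open Finset Matrix
open Vale.Agent.P141.PL (Pt iv hs ix mem_iv ix_ix cb mem_cb cx)
open Vale.Agent.P141.H352 (In In2 p sq NB gV Cmp nd)
open Vale.Agent.P141.H795 (kp)
open Vale.Agent.P141.H677
open Vale.Agent.P141.H677.Sk
open Vale.Agent.P141.H652 (GR)
open Vale.Agent.P141.H922.NB (Phi Wd sqv)

noncomputable section

variable {ι : Type} [Fintype ι]

/-- the window sum of `H922.NB` at one scale -/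
def WS (N : ℕ) (R S T : ℤ) (A : ℤ → ℤ → ℝ) (b : ℤ → ℤ → ι → ℝ) (K : ℕ) (c : ℤ) : ℝ :=
  ∑ m ∈ Wd N K S, Phi N R T K c m (fun z x => sqv (nd (H922.NB.Vz N S A b z x) K m))

/-- **The neighbour sum on one plane is a window sum.** -/
theorem NB_win [DecidableEq ι] (N K : ℕ) (R S T c : ℤ) (A : ℤ → ℤ → ℝ) (b : ℤ → ℤ → ι → ℝ) :
    NB N R S T A b K c ≤ WS N R S T A b K (c + 1) := by
  classical
  set W : Finset ℤ := ((iv (N - K) R) ×ˢ (iv (N - K) T)).image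
    (fun q : ℤ × ℤ => c + 1 - q.1 - q.2) with hW
  refine le_trans (le_of_eq ?_) (H922.NB.nb_win R S T (c + 1) A b W)
  unfold H352.NB H922.NB.Phi
  symm
  rw [sum_comm]
  refine sum_congr rfl fun n hn => ?_
  rw [← sum_filter]
  refine sum_nbij' (fun m => c + 1 - m - n) (fun n' => c + 1 - n' - n) (fun m hm => ?_)
    (fun n' hn' => ?_) (fun m _ => ?_) (fun n' _ => ?_) (fun m _ => ?_)
  · exact (mem_filter.1 hm).2
  · rw [mem_filter]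
    refine ⟨?_, ?_⟩
    · rw [hW, mem_image]
      exact ⟨(n, n'), mem_product.2 ⟨hn, hn'⟩, by simp only; ring⟩
    · have e : c + 1 - (c + 1 - n' - n) - n = n' := by ring
      rw [e]
      exact hn'
  · ring
  · ring
  · refine sum_congr rfl fun z _ => sum_congr rfl fun x _ => ?_
    have e1 : c - n - (c + 1 - m - n) + 1 = m := by ring
    have e2 : c - n - (c + 1 - m - n) = m - 1 := by ring
    rw [e1, e2, H352.sq_eq]
    rfl

/-- the neighbour sums of all scales and offsets -/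
theorem nb_part [DecidableEq ι] (K : ℕ) (R S T : ℤ) (c : ℕ → ℤ) (A : ℕ → ℤ → ℤ → ℝ)
    (b : ℕ → ℤ → ℤ → ι → ℝ) {N1 : ℝ}
    (hN : ∀ d : ℤ, -8 ≤ d → d ≤ 9 →
      ∑ k ∈ Icc 1 K, WS K R S T (A k) (b k) k (c k + d) ≤ N1) :
    ∑ k ∈ Icc 1 K, ∑ d ∈ Ico (-9 : ℤ) 9, NB K R S T (A k) (b k) k (c k + d) ≤ 18 * N1 := by
  rw [sum_comm]
  have h : ∀ d ∈ Ico (-9 : ℤ) 9, ∑ k ∈ Icc 1 K, NB K R S T (A k) (b k) k (c k + d) ≤ N1 := by
    intro d hd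
    rw [mem_Ico] at hd
    refine le_trans (sum_le_sum fun k _ => NB_win K k R S T (c k + d) (A k) (b k)) ?_
    refine le_trans (le_of_eq (sum_congr rfl fun k _ => ?_)) (hN (d + 1) (by omega) (by omega))
    rw [add_assoc]
  refine (sum_le_sum h).trans (le_of_eq ?_)
  have e : (Ico (-9 : ℤ) 9).card = 18 := by decide
  rw [sum_const, e, nsmul_eq_mul]
  norm_num

/-- pairs of scales by their difference -/
theorem sum_diff (K : ℕ) (f : ℕ → ℕ → ℝ) :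
    ∑ k ∈ Icc 1 K, ∑ j ∈ range k, f k j =
      ∑ r ∈ range K, ∑ j ∈ range (K - r), f (j + r + 1) j := by
  rw [sum_sigma', sum_sigma']
  refine sum_nbij' (fun q => ⟨q.1 - (q.2 + 1), q.2⟩) (fun q => ⟨q.2 + q.1 + 1, q.2⟩)
    (fun q hq => ?_) (fun q hq => ?_) (fun q hq => ?_) (fun q hq => ?_) (fun q hq => ?_)
  · rw [mem_sigma, mem_Icc, mem_range] at hq
    rw [mem_sigma, mem_range, mem_range]
    simp only at hq ⊢
    omega
  · rw [mem_sigma, mem_range, mem_range] at hq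
    rw [mem_sigma, mem_Icc, mem_range]
    simp only at hq ⊢
    omega
  · rw [mem_sigma, mem_Icc, mem_range] at hq
    obtain ⟨k, j⟩ := q
    simp only at hq ⊢
    have e : j + (k - (j + 1)) + 1 = k := by omega
    rw [e]
  · obtain ⟨r, j⟩ := q
    simp only
    have e : j + r + 1 - (j + 1) = r := by omega
    rw [e]
  · rw [mem_sigma, mem_Icc, mem_range] at hq
    obtain ⟨k, j⟩ := q
    simp only at hq ⊢
    have e : j + (k - (j + 1)) + 1 = k := by omega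
    rw [e]

theorem geo_two (n : ℕ) : ∑ r ∈ range n, (2 / 3 : ℝ) ^ r ≤ 3 := H922.NB.two_thirds n

/-- the gap sums of all scales, differences and offsets -/
theorem gr_part (K : ℕ) (R S T : ℤ) (c : ℕ → ℤ) (A : ℕ → ℤ → ℤ → ℝ)
    (b : ℕ → ℤ → ℤ → ι → ℝ) {G : ℝ} (hG0 : 0 ≤ G)
    (hG : ∀ r < K, ∀ d : ℤ, -9 ≤ d → d ≤ 9 →
      ∑ k ∈ range (K - r), GR K R S T (k + 1) r (c (k + r + 1) + d)
        (gV (A (k + r + 1)) (b (k + r + 1)) (k + r + 1) (k + 1)) ≤ G * 2 ^ r) :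
    ∑ k ∈ Icc 1 K, ∑ j ∈ range k, (1 / 3 : ℝ) ^ (k - (j + 1)) * ∑ d ∈ Icc (-9 : ℤ) 9,
      GR K R S T (j + 1) (k - (j + 1)) (c k + d) (gV (A k) (b k) k (j + 1)) ≤ 57 * G := by
  rw [sum_diff K fun k j => (1 / 3 : ℝ) ^ (k - (j + 1)) * ∑ d ∈ Icc (-9 : ℤ) 9,
      GR K R S T (j + 1) (k - (j + 1)) (c k + d) (gV (A k) (b k) k (j + 1))]
  have h1 : ∀ r ∈ range K, ∑ j ∈ range (K - r), (1 / 3 : ℝ) ^ (j + r + 1 - (j + 1)) *
      ∑ d ∈ Icc (-9 : ℤ) 9, GR K R S T (j + 1) (j + r + 1 - (j + 1)) (c (j + r + 1) + d)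
        (gV (A (j + r + 1)) (b (j + r + 1)) (j + r + 1) (j + 1)) ≤ 19 * G * (2 / 3) ^ r := by
    intro r hr
    rw [mem_range] at hr
    have e1 : ∀ j : ℕ, j + r + 1 - (j + 1) = r := fun j => by omega
    simp only [e1]
    rw [← mul_sum, sum_comm]
    have h2 : ∀ d ∈ Icc (-9 : ℤ) 9, ∑ k ∈ range (K - r), GR K R S T (k + 1) r
        (c (k + r + 1) + d) (gV (A (k + r + 1)) (b (k + r + 1)) (k + r + 1) (k + 1)) ≤
        G * 2 ^ r := fun d hd => by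
      rw [mem_Icc] at hd
      exact hG r hr d hd.1 hd.2
    have h3 := mul_le_mul_of_nonneg_left (sum_le_sum h2) (by positivity : (0 : ℝ) ≤ (1 / 3) ^ r)
    refine h3.trans (le_of_eq ?_)
    have e : (Icc (-9 : ℤ) 9).card = 19 := by decide
    rw [sum_const, e, nsmul_eq_mul]
    have e3 : (2 / 3 : ℝ) ^ r = 2 ^ r * (1 / 3) ^ r := by rw [← mul_pow]; norm_num
    rw [e3]
    push_cast
    ring
  refine (sum_le_sum h1).trans ?_
  rw [← mul_sum]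
  have h4 := mul_le_mul_of_nonneg_left (geo_two K) (by positivity : (0 : ℝ) ≤ 19 * G)
  linarith

/-- **The second factor of the near term** from the window numbers `N1` and the gap numbers `G`. -/
theorem E2_sum [DecidableEq ι] {o : ℤ} (ho : o = 1 ∨ o = -1) (K : ℕ) (M : Pt) (A : FamA)
    (b : FamV ι) (N1 G : ℤ → ℝ) (hG0 : ∀ x0, 0 ≤ G x0)
    (hN : ∀ t ∈ rt M, ∀ x0 ∈ iv K t, ∀ d : ℤ, -8 ≤ d → d ≤ 9 →
      ∑ k ∈ Icc 1 K, WS K M.2.2 M.2.1 M.1 (A x0 k) (b x0 k) k (cP o x0 k + d) ≤ N1 x0)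
    (hG : ∀ t ∈ rt M, ∀ x0 ∈ iv K t, ∀ r < K, ∀ d : ℤ, -9 ≤ d → d ≤ 9 →
      ∑ k ∈ range (K - r), GR K M.2.2 M.2.1 M.1 (k + 1) r (cP o x0 (k + r + 1) + d)
        (gV (A x0 (k + r + 1)) (b x0 (k + r + 1)) (k + r + 1) (k + 1)) ≤ G x0 * 2 ^ r) :
    E2 o K M A b ≤ ∑ t ∈ rt M, ∑ x0 ∈ iv K t, (432000 * N1 x0 + 17100 * G x0) := by
  refine (E2_le ho K M A b).trans ?_
  refine sum_le_sum fun t ht => sum_le_sum fun x0 hx => ?_
  rw [sum_add_distrib, ← mul_sum, ← mul_sum]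
  have h1 := nb_part K M.2.2 M.2.1 M.1 (cP o x0) (A x0) (b x0) (hN t ht x0 hx)
  have h2 := gr_part K M.2.2 M.2.1 M.1 (cP o x0) (A x0) (b x0) (hG0 x0) (hG t ht x0 hx)
  linarith

/-- **The near term from three numbers.** -/
theorem PN_num [DecidableEq ι] {Al : ℕ → Pt → Prop} {o : ℤ} {K : ℕ} {x : Pt}
    {sg : ℕ → Pt → ℝ} {l e P : ℝ} {u v : ℤ → ℤ → ι → ℝ} {A : FamA} {b C : FamV ι}
    {φ : ℤ → ℕ → ℤ → ℤ → ℝ} (ho : o = 1 ∨ o = -1) (hl : 0 < l) (hsg : ∀ k m, |sg k m| ≤ 1)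
    (hC : ∀ x0 k x3 x1, C x0 k x3 x1 = φ x0 k x3 x1 • v x1 x3)
    (hv : ∀ x1 ∈ iv K (cx K x).1, ∀ θ : ι → ℝ,
      ∑ x3 ∈ iv K (cx K x).2.2, (θ ⬝ᵥ v x1 x3) ^ 2 ≤ P * (θ ⬝ᵥ θ)) (he : 0 ≤ e)
    (hφ : ∀ k ≤ K, ∀ j x1 x3, ∑ x0 ∈ iv k j, φ x0 k x3 x1 ^ 2 ≤ e * 2 ^ k)
    (N1 G : ℤ → ℝ) (hG0 : ∀ x0, 0 ≤ G x0)
    (hN : ∀ t ∈ rt (cx K x), ∀ x0 ∈ iv K t, ∀ d : ℤ, -8 ≤ d → d ≤ 9 →
      ∑ k ∈ Icc 1 K, WS K (cx K x).2.2 (cx K x).2.1 (cx K x).1 (A x0 k) (b x0 k) k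
        (cP o x0 k + d) ≤ N1 x0)
    (hG : ∀ t ∈ rt (cx K x), ∀ x0 ∈ iv K t, ∀ r < K, ∀ d : ℤ, -9 ≤ d → d ≤ 9 →
      ∑ k ∈ range (K - r), GR K (cx K x).2.2 (cx K x).2.1 (cx K x).1 (k + 1) r
        (cP o x0 (k + r + 1) + d)
        (gV (A x0 (k + r + 1)) (b x0 (k + r + 1)) (k + r + 1) (k + 1)) ≤ G x0 * 2 ^ r) :
    PN ι Al o K (cx K x) sg l u A b C ≤
      √(e * (2 ^ K * ((2 * l)⁻¹ *
        (P * ∑ x1 ∈ iv K (cx K x).1, (GT u x1 K (cx K x).2.1).trace)))) *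
      √(∑ t ∈ rt (cx K x), ∑ x0 ∈ iv K t, (432000 * N1 x0 + 17100 * G x0)) := by
  refine (PN_cs Al o K (cx K x) sg l u A b C).trans ?_
  exact mul_le_mul (Real.sqrt_le_sqrt (E1_le ho hl hsg hC hv he hφ))
    (Real.sqrt_le_sqrt (E2_sum ho K (cx K x) A b N1 G hG0 hN hG)) (Real.sqrt_nonneg _)
    (Real.sqrt_nonneg _)

end

end Vale.Agent.P141.H56.Pn
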