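import Vale.Agent.P141.H56.PnSum

/-!
# P141, line (A): the near term of the flow part, numbers summed over `x0`

`E2_root`, `PN_root` : the numbers of the neighbour differences and of the gaps are summed over
`x0` first, one number for every offset of the plane.
-/

namespace Vale.Agent.P141.H56.Pn

open Finset Matrix
open Vale.Agent.P141.PL (Pt iv hs ix mem_iv ix_ix cb mem_cb cx)
open Vale.Agent.P141.H352 (In In2 p sq NB gV Cmp nd)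
open Vale.Agent.P141.H795 (kp)
open Vale.Agent.P141.H677
open Vale.Agent.P141.H677.Sk
open Vale.Agent.P141.H652 (GR)

noncomputable section

variable {ι : Type} [Fintype ι]

theorem swap3 {β : Type*} (M : Pt) (K : ℕ) (s : Finset β) (f : β → ℤ → ℝ) :
    ∑ t ∈ rt M, ∑ x0 ∈ iv K t, ∑ d ∈ s, f d x0 = ∑ d ∈ s, ∑ t ∈ rt M, ∑ x0 ∈ iv K t, f d x0 := by
  rw [sum_comm (s := s)]
  refine sum_congr rfl fun t _ => ?_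
  rw [sum_comm]

/-- the neighbour sums of all points, scales and offsets -/
theorem nb_rt [DecidableEq ι] {o : ℤ} (K : ℕ) (M : Pt) (A : FamA) (b : FamV ι) {BN : ℝ}
    (hN : ∀ d : ℤ, -8 ≤ d → d ≤ 9 → ∑ t ∈ rt M, ∑ x0 ∈ iv K t,
      ∑ k ∈ Icc 1 K, WS K M.2.2 M.2.1 M.1 (A x0 k) (b x0 k) k (cP o x0 k + d) ≤ BN) :
    ∑ t ∈ rt M, ∑ x0 ∈ iv K t, ∑ k ∈ Icc 1 K, ∑ d ∈ Ico (-9 : ℤ) 9,
      NB K M.2.2 M.2.1 M.1 (A x0 k) (b x0 k) k (cP o x0 k + d) ≤ 18 * BN := by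
  have e1 : ∀ x0 : ℤ, ∑ k ∈ Icc 1 K, ∑ d ∈ Ico (-9 : ℤ) 9,
      NB K M.2.2 M.2.1 M.1 (A x0 k) (b x0 k) k (cP o x0 k + d) = ∑ d ∈ Ico (-9 : ℤ) 9,
      ∑ k ∈ Icc 1 K, NB K M.2.2 M.2.1 M.1 (A x0 k) (b x0 k) k (cP o x0 k + d) :=
    fun x0 => sum_comm
  simp only [e1]
  rw [swap3 M K (Ico (-9 : ℤ) 9) fun d x0 => ∑ k ∈ Icc 1 K, NB K M.2.2 M.2.1 M.1 (A x0 k)
    (b x0 k) k (cP o x0 k + d)]
  have h : ∀ d ∈ Ico (-9 : ℤ) 9, ∑ t ∈ rt M, ∑ x0 ∈ iv K t, ∑ k ∈ Icc 1 K,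
      NB K M.2.2 M.2.1 M.1 (A x0 k) (b x0 k) k (cP o x0 k + d) ≤ BN := by
    intro d hd
    rw [mem_Ico] at hd
    refine le_trans (sum_le_sum fun t _ => sum_le_sum fun x0 _ => sum_le_sum fun k _ =>
      NB_win K k M.2.2 M.2.1 M.1 (cP o x0 k + d) (A x0 k) (b x0 k)) ?_
    refine le_trans (le_of_eq (sum_congr rfl fun t _ => sum_congr rfl fun x0 _ =>
      sum_congr rfl fun k _ => ?_)) (hN (d + 1) (by omega) (by omega))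
    rw [add_assoc]
  refine (sum_le_sum h).trans (le_of_eq ?_)
  have e : (Ico (-9 : ℤ) 9).card = 18 := by decide
  rw [sum_const, e, nsmul_eq_mul]
  norm_num

/-- the gap sums of all points, scales, differences and offsets -/
theorem gr_rt {o : ℤ} (K : ℕ) (M : Pt) (A : FamA) (b : FamV ι) {BG : ℝ} (hG0 : 0 ≤ BG)
    (hG : ∀ r < K, ∀ d : ℤ, -9 ≤ d → d ≤ 9 → ∑ t ∈ rt M, ∑ x0 ∈ iv K t,
      ∑ k ∈ range (K - r), GR K M.2.2 M.2.1 M.1 (k + 1) r (cP o x0 (k + r + 1) + d)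
        (gV (A x0 (k + r + 1)) (b x0 (k + r + 1)) (k + r + 1) (k + 1)) ≤ BG * 2 ^ r) :
    ∑ t ∈ rt M, ∑ x0 ∈ iv K t, ∑ k ∈ Icc 1 K, ∑ j ∈ range k, (1 / 3 : ℝ) ^ (k - (j + 1)) *
      ∑ d ∈ Icc (-9 : ℤ) 9, GR K M.2.2 M.2.1 M.1 (j + 1) (k - (j + 1)) (cP o x0 k + d)
        (gV (A x0 k) (b x0 k) k (j + 1)) ≤ 57 * BG := by
  have e1 : ∀ x0 : ℤ, ∑ k ∈ Icc 1 K, ∑ j ∈ range k, (1 / 3 : ℝ) ^ (k - (j + 1)) *
      ∑ d ∈ Icc (-9 : ℤ) 9, GR K M.2.2 M.2.1 M.1 (j + 1) (k - (j + 1)) (cP o x0 k + d)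
        (gV (A x0 k) (b x0 k) k (j + 1)) =
      ∑ r ∈ range K, (1 / 3 : ℝ) ^ r * ∑ d ∈ Icc (-9 : ℤ) 9, ∑ k ∈ range (K - r),
        GR K M.2.2 M.2.1 M.1 (k + 1) r (cP o x0 (k + r + 1) + d)
          (gV (A x0 (k + r + 1)) (b x0 (k + r + 1)) (k + r + 1) (k + 1)) := by
    intro x0
    rw [sum_diff K fun k j => (1 / 3 : ℝ) ^ (k - (j + 1)) * ∑ d ∈ Icc (-9 : ℤ) 9,
      GR K M.2.2 M.2.1 M.1 (j + 1) (k - (j + 1)) (cP o x0 k + d)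
        (gV (A x0 k) (b x0 k) k (j + 1))]
    refine sum_congr rfl fun r _ => ?_
    have e2 : ∀ j : ℕ, j + r + 1 - (j + 1) = r := fun j => by omega
    simp only [e2]
    rw [← mul_sum, sum_comm]
  simp only [e1]
  rw [swap3 M K (range K) fun r x0 => (1 / 3 : ℝ) ^ r * ∑ d ∈ Icc (-9 : ℤ) 9,
    ∑ k ∈ range (K - r), GR K M.2.2 M.2.1 M.1 (k + 1) r (cP o x0 (k + r + 1) + d)
      (gV (A x0 (k + r + 1)) (b x0 (k + r + 1)) (k + r + 1) (k + 1))]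
  have h1 : ∀ r ∈ range K, ∑ t ∈ rt M, ∑ x0 ∈ iv K t, (1 / 3 : ℝ) ^ r *
      ∑ d ∈ Icc (-9 : ℤ) 9, ∑ k ∈ range (K - r),
        GR K M.2.2 M.2.1 M.1 (k + 1) r (cP o x0 (k + r + 1) + d)
          (gV (A x0 (k + r + 1)) (b x0 (k + r + 1)) (k + r + 1) (k + 1)) ≤
      19 * BG * (2 / 3) ^ r := by
    intro r hr
    rw [mem_range] at hr
    simp only [← mul_sum]
    rw [swap3 M K (Icc (-9 : ℤ) 9) fun d x0 => ∑ k ∈ range (K - r),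
      GR K M.2.2 M.2.1 M.1 (k + 1) r (cP o x0 (k + r + 1) + d)
        (gV (A x0 (k + r + 1)) (b x0 (k + r + 1)) (k + r + 1) (k + 1))]
    have h2 := sum_le_sum fun (d : ℤ) (hd : d ∈ Icc (-9 : ℤ) 9) =>
      hG r hr d (mem_Icc.1 hd).1 (mem_Icc.1 hd).2
    have h3 := mul_le_mul_of_nonneg_left h2 (by positivity : (0 : ℝ) ≤ (1 / 3) ^ r)
    refine h3.trans (le_of_eq ?_)
    have e : (Icc (-9 : ℤ) 9).card = 19 := by decide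
    rw [sum_const, e, nsmul_eq_mul]
    have e3 : (2 / 3 : ℝ) ^ r = 2 ^ r * (1 / 3) ^ r := by rw [← mul_pow]; norm_num
    rw [e3]
    push_cast
    ring
  refine (sum_le_sum h1).trans ?_
  rw [← mul_sum]
  have h4 := mul_le_mul_of_nonneg_left (geo_two K) (by positivity : (0 : ℝ) ≤ 19 * BG)
  linarith

/-- **The second factor of the near term**, numbers summed over the points. -/
theorem E2_root [DecidableEq ι] {o : ℤ} (ho : o = 1 ∨ o = -1) (K : ℕ) (M : Pt) (A : FamA)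
    (b : FamV ι) {BN BG : ℝ} (hG0 : 0 ≤ BG)
    (hN : ∀ d : ℤ, -8 ≤ d → d ≤ 9 → ∑ t ∈ rt M, ∑ x0 ∈ iv K t,
      ∑ k ∈ Icc 1 K, WS K M.2.2 M.2.1 M.1 (A x0 k) (b x0 k) k (cP o x0 k + d) ≤ BN)
    (hG : ∀ r < K, ∀ d : ℤ, -9 ≤ d → d ≤ 9 → ∑ t ∈ rt M, ∑ x0 ∈ iv K t,
      ∑ k ∈ range (K - r), GR K M.2.2 M.2.1 M.1 (k + 1) r (cP o x0 (k + r + 1) + d)
        (gV (A x0 (k + r + 1)) (b x0 (k + r + 1)) (k + r + 1) (k + 1)) ≤ BG * 2 ^ r) :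
    E2 o K M A b ≤ 432000 * BN + 17100 * BG := by
  refine (E2_le ho K M A b).trans ?_
  have h1 := nb_rt K M A b hN
  have h2 := gr_rt K M A b hG0 hG
  have e : ∑ t ∈ rt M, ∑ x0 ∈ iv K t, ∑ k ∈ Icc 1 K,
      (24000 * ∑ d ∈ Ico (-9 : ℤ) 9, NB K M.2.2 M.2.1 M.1 (A x0 k) (b x0 k) k (cP o x0 k + d) +
      300 * ∑ j ∈ range k, (1 / 3 : ℝ) ^ (k - (j + 1)) * ∑ d ∈ Icc (-9 : ℤ) 9,
        GR K M.2.2 M.2.1 M.1 (j + 1) (k - (j + 1)) (cP o x0 k + d)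
          (gV (A x0 k) (b x0 k) k (j + 1))) =
      24000 * (∑ t ∈ rt M, ∑ x0 ∈ iv K t, ∑ k ∈ Icc 1 K, ∑ d ∈ Ico (-9 : ℤ) 9,
        NB K M.2.2 M.2.1 M.1 (A x0 k) (b x0 k) k (cP o x0 k + d)) +
      300 * (∑ t ∈ rt M, ∑ x0 ∈ iv K t, ∑ k ∈ Icc 1 K, ∑ j ∈ range k,
        (1 / 3 : ℝ) ^ (k - (j + 1)) * ∑ d ∈ Icc (-9 : ℤ) 9,
        GR K M.2.2 M.2.1 M.1 (j + 1) (k - (j + 1)) (cP o x0 k + d)
          (gV (A x0 k) (b x0 k) k (j + 1))) := by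
    simp only [sum_add_distrib, mul_sum]
  rw [e]
  linarith

/-- **The near term from two numbers.** -/
theorem PN_root [DecidableEq ι] {Al : ℕ → Pt → Prop} {o : ℤ} {K : ℕ} {x : Pt}
    {sg : ℕ → Pt → ℝ} {l e P : ℝ} {u v : ℤ → ℤ → ι → ℝ} {A : FamA} {b C : FamV ι}
    {φ : ℤ → ℕ → ℤ → ℤ → ℝ} (ho : o = 1 ∨ o = -1) (hl : 0 < l) (hsg : ∀ k m, |sg k m| ≤ 1)
    (hC : ∀ x0 k x3 x1, C x0 k x3 x1 = φ x0 k x3 x1 • v x1 x3)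
    (hv : ∀ x1 ∈ iv K (cx K x).1, ∀ θ : ι → ℝ,
      ∑ x3 ∈ iv K (cx K x).2.2, (θ ⬝ᵥ v x1 x3) ^ 2 ≤ P * (θ ⬝ᵥ θ)) (he : 0 ≤ e)
    (hφ : ∀ k ≤ K, ∀ j x1 x3, ∑ x0 ∈ iv k j, φ x0 k x3 x1 ^ 2 ≤ e * 2 ^ k)
    {BN BG : ℝ} (hG0 : 0 ≤ BG)
    (hN : ∀ d : ℤ, -8 ≤ d → d ≤ 9 → ∑ t ∈ rt (cx K x), ∑ x0 ∈ iv K t,
      ∑ k ∈ Icc 1 K, WS K (cx K x).2.2 (cx K x).2.1 (cx K x).1 (A x0 k) (b x0 k) k
        (cP o x0 k + d) ≤ BN)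
    (hG : ∀ r < K, ∀ d : ℤ, -9 ≤ d → d ≤ 9 → ∑ t ∈ rt (cx K x), ∑ x0 ∈ iv K t,
      ∑ k ∈ range (K - r), GR K (cx K x).2.2 (cx K x).2.1 (cx K x).1 (k + 1) r
        (cP o x0 (k + r + 1) + d)
        (gV (A x0 (k + r + 1)) (b x0 (k + r + 1)) (k + r + 1) (k + 1)) ≤ BG * 2 ^ r) :
    PN ι Al o K (cx K x) sg l u A b C ≤
      √(e * (2 ^ K * ((2 * l)⁻¹ *
        (P * ∑ x1 ∈ iv K (cx K x).1, (GT u x1 K (cx K x).2.1).trace)))) *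
      √(432000 * BN + 17100 * BG) := by
  refine (PN_cs Al o K (cx K x) sg l u A b C).trans ?_
  exact mul_le_mul (Real.sqrt_le_sqrt (E1_le ho hl hsg hC hv he hφ))
    (Real.sqrt_le_sqrt (E2_root ho K (cx K x) A b hG0 hN hG)) (Real.sqrt_nonneg _)
    (Real.sqrt_nonneg _)

end

end Vale.Agent.P141.H56.Pn
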